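import Vale.Agent.P237.Quant.TailData.N34.tailN34P0Part0
import Vale.Agent.P237.Quant.TailData.N34.tailN34P0Part1
import Vale.Agent.P237.Quant.TailData.N34.tailN34P0Part2
import Vale.Agent.P237.Quant.TailData.N34.tailN34P0Part3
import Vale.Agent.P237.Quant.TailData.N34.tailN34P0Part4
import Vale.Agent.P237.Quant.TailData.N34.tailN34P0Part5

/-!
Tail calibration tailN34P0 in dimension 34. The check. Generated data, checked by the kernel.
-/

set_option maxRecDepth 100000
set_option linter.all false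

namespace Vale.Agent.P237.Quant.TailData

open TailCert


/-- The calibration. -/
noncomputable def tailN34P0 : Cfg :=
  tailN34P0Base.withIvals (List.flatten [tailN34P0L0, tailN34P0L1, tailN34P0L2, tailN34P0L3, tailN34P0L4, tailN34P0L5, tailN34P0L6, tailN34P0L7, tailN34P0L8, tailN34P0L9, tailN34P0L10, tailN34P0L11, tailN34P0L12, tailN34P0L13, tailN34P0L14, tailN34P0L15, tailN34P0L16, tailN34P0L17, tailN34P0L18, tailN34P0L19, tailN34P0L20, tailN34P0L21, tailN34P0L22])

theorem tailN34P0_parts : [tailN34P0L0, tailN34P0L1, tailN34P0L2, tailN34P0L3, tailN34P0L4, tailN34P0L5, tailN34P0L6, tailN34P0L7, tailN34P0L8, tailN34P0L9, tailN34P0L10, tailN34P0L11, tailN34P0L12, tailN34P0L13, tailN34P0L14, tailN34P0L15, tailN34P0L16, tailN34P0L17, tailN34P0L18, tailN34P0L19, tailN34P0L20, tailN34P0L21, tailN34P0L22].Forall fun l => tailN34P0Base.partUsed tailN34P0Used l = true := by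
  simp only [List.forall_cons, List.Forall]
  exact ⟨tailN34P0L0_ok, tailN34P0L1_ok, tailN34P0L2_ok, tailN34P0L3_ok, tailN34P0L4_ok, tailN34P0L5_ok, tailN34P0L6_ok, tailN34P0L7_ok, tailN34P0L8_ok, tailN34P0L9_ok, tailN34P0L10_ok, tailN34P0L11_ok, tailN34P0L12_ok, tailN34P0L13_ok, tailN34P0L14_ok, tailN34P0L15_ok, tailN34P0L16_ok, tailN34P0L17_ok, tailN34P0L18_ok, tailN34P0L19_ok, tailN34P0L20_ok, tailN34P0L21_ok, tailN34P0L22_ok⟩

theorem tailN34P0_check : tailN34P0.check = true :=
  Cfg.check_of_parts (by decide +kernel) tailN34P0_parts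

end Vale.Agent.P237.Quant.TailData
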